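import Mathlib

namespace Vale.Agent.P102

open Finset

/-- If a probability vector is, up to bijections, the image of independent copies of itself
under addition, then its support is invariant under the differences of its points. -/
theorem support_translate {V : Type*} [AddCommGroup V] [Fintype V] [DecidableEq V]
    (ν : V → ℝ) (h0 : ∀ v, 0 ≤ ν v) (h1 : ∑ v, ν v = 1) {m : ℕ}
    (b : Fin (m + 2) → V ≃+ V) (a : V ≃+ V) (c : V)
    (heq : ∀ w, ν w = ∑ u : Fin (m + 2) → V,
      if a w + ∑ i, b i (u i) = c then ∏ i, ν (u i) else 0)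
    {x y : V} (hx : 0 < ν x) (hy : 0 < ν y) (z : V) :
    ν (z + (b 0).symm (a x - a y)) = ν z := by
  classical
  have : Nonempty V := ⟨0⟩
  obtain ⟨w0, -, hw0⟩ := Finset.exists_max_image (univ : Finset V) ν univ_nonempty
  have hmax : ∀ v, ν v ≤ ν w0 := fun v => hw0 v (mem_univ v)
  -- law of the tail
  set ρ : V → ℝ := fun r => ∑ u : Fin (m + 1) → V,
    if ∑ i, b i.succ (u i) = r then ∏ i, ν (u i) else 0 with hρ
  have hρ0 : ∀ r, 0 ≤ ρ r := fun r => Finset.sum_nonneg fun u _ => by
    split
    · exact Finset.prod_nonneg fun i _ => h0 _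
    · exact le_rfl
  have hρ1 : ∑ r, ρ r = 1 := by
    simp only [hρ]
    rw [Finset.sum_comm]
    simp [← Fintype.sum_pow, h1]
  have hsplit : ∀ w, ν w = ∑ s, ν s * ρ (c - a w - b 0 s) := by
    intro w
    rw [heq w, ← (Fin.consEquiv fun _ : Fin (m + 2) => V).sum_comp, Fintype.sum_prod_type]
    refine Finset.sum_congr rfl fun s _ => ?_
    simp only [hρ, Finset.mul_sum]
    refine Finset.sum_congr rfl fun u _ => ?_
    simp only [Fin.consEquiv_apply, Fin.sum_univ_succ, Fin.prod_univ_succ, Fin.cons_zero,
      Fin.cons_succ]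
    rw [mul_ite, mul_zero]
    exact if_congr (by constructor <;> intro h <;> first | (rw [← h]; abel) | (rw [h]; abel))
      rfl rfl
  -- at least as many tail points as support points
  set S : Finset V := univ.filter fun v => 0 < ν v with hS
  set R : Finset V := univ.filter fun v => 0 < ρ v with hR
  have hcard : S.card ≤ R.card := by
    let u : V → Fin (m + 1) → V := fun v => Fin.cons v fun _ => x
    refine Finset.card_le_card_of_injOn (fun v => ∑ i, b i.succ (u v i)) ?_ ?_
    · intro v hv
      have hv' : 0 < ν v := by simpa [hS] using hv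
      simp only [hR, coe_filter, mem_univ, true_and, Set.mem_ofPred_eq]
      refine lt_of_lt_of_le ?_ (Finset.single_le_sum (f := fun w => if ∑ i, b i.succ (w i) =
        ∑ i, b i.succ (u v i) then ∏ i, ν (w i) else 0) (fun w _ => ?_) (mem_univ (u v)))
      · rw [if_pos rfl]
        exact Finset.prod_pos fun i _ => Fin.cases hv' (fun _ => hx) i
      · split
        · exact Finset.prod_nonneg fun i _ => h0 _
        · exact le_rfl
    · intro v _ v' _ h
      simpa [u, Fin.sum_univ_succ] using h
  -- at a maximum the support is one translate of the reflected tail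
  have key : ∀ w, ν w = ν w0 → ∀ s,
      (0 < ρ (c - a w - b 0 s) → ν s = ν w0) := by
    intro w hw s hs
    have hsum : ∑ s, ρ (c - a w - b 0 s) = 1 := by
      rw [← hρ1]
      exact ((b 0).toEquiv.trans (Equiv.subLeft (c - a w))).sum_comp ρ
    have h0' : ∑ s, (ν w0 - ν s) * ρ (c - a w - b 0 s) = 0 := by
      simp only [sub_mul, Finset.sum_sub_distrib, ← Finset.mul_sum, hsum, mul_one]
      rw [← hsplit w, hw, sub_self]
    have := (Finset.sum_eq_zero_iff_of_nonneg (fun s _ =>
      mul_nonneg (sub_nonneg.2 (hmax s)) (hρ0 _))).1 h0' s (mem_univ s)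
    rcases mul_eq_zero.1 this with h | h
    · linarith
    · linarith
  have hpos0 : 0 < ν w0 := lt_of_lt_of_le hx (hmax x)
  have full : ∀ w, ν w = ν w0 → ∀ s, (0 < ρ (c - a w - b 0 s) ↔ 0 < ν s) := by
    intro w hw
    let P : Finset V := univ.filter fun s => 0 < ρ (c - a w - b 0 s)
    have hPS : P ⊆ S := by
      intro s hs
      simp only [P, hS, mem_filter, mem_univ, true_and] at hs ⊢
      rw [key w hw s hs]; exact hpos0
    have hPR : R.card ≤ P.card := by
      refine Finset.card_le_card_of_injOn (fun r => (b 0).symm (c - a w - r)) ?_ ?_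
      · intro r hr
        simpa [P, hR] using hr
      · intro r _ r' _ h
        simpa using h
    have hEq : P = S := Finset.eq_of_subset_of_card_le hPS (hcard.trans hPR)
    intro s
    have := Finset.ext_iff.1 hEq s
    simpa [P, hS] using this
  have unif : ∀ v, 0 < ν v → ν v = ν w0 := fun v hv =>
    key w0 rfl v ((full w0 rfl v).2 hv)
  have shift : ∀ z, 0 < ν (z + (b 0).symm (a x - a y)) ↔ 0 < ν z := by
    intro z
    rw [← full x (unif x hx) z, ← full y (unif y hy) (z + (b 0).symm (a x - a y))]
    have hb : b 0 (z + (b 0).symm (a x - a y)) = b 0 z + (a x - a y) := by simp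
    rw [hb, show c - a y - (b 0 z + (a x - a y)) = c - a x - b 0 z by abel]
  by_cases hz : 0 < ν z
  · rw [unif z hz, unif _ ((shift z).2 hz)]
  · have h := le_antisymm (not_lt.1 hz) (h0 z)
    have h' := le_antisymm (not_lt.1 (fun q => hz ((shift z).1 q))) (h0 _)
    rw [h, h']

end Vale.Agent.P102
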