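import Mathlib

namespace Vale.Agent.P102

open MeasureTheory

/-- Mixing of order `k` along forward times with gaps tending to infinity. -/
def MixingOfOrder {Ω : Type*} [MeasurableSpace Ω] (T : Ω → Ω) (μ : Measure Ω) (k : ℕ) : Prop :=
  ∀ A : Fin k → Set Ω, (∀ i, MeasurableSet (A i)) → ∀ ε : ℝ, 0 < ε →
    ∃ N : ℕ, ∀ t : Fin k → ℕ, (∀ i j : Fin k, i < j → t i + N ≤ t j) →
      |μ.real (⋂ i, (T^[t i]) ⁻¹' A i) - ∏ i, μ.real (A i)| < ε

end Vale.Agent.P102
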