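import Vale.Agent.P102.Defs
import Vale.Agent.P102.Conv

namespace Vale.Agent.P102

open MeasureTheory Filter Topology

variable {Ω : Type*} [MeasurableSpace Ω] {μ : Measure Ω} [IsProbabilityMeasure μ]
variable {G : Type*} [AddCommGroup G] [Finite G] [MeasurableSpace G] [MeasurableSingletonClass G]
variable {T : Ω → Ω} {f : Ω → G}

/-- The block of `f` of length `L + 1` read at time `n`. -/
def block (T : Ω → Ω) (f : Ω → G) (L n : ℕ) (x : Ω) : Fin (L + 1) → G :=
  fun s => f (T^[n + (s : ℕ)] x)

theorem measurable_block (hT : Measurable T) (hf : Measurable f) (L n : ℕ) :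
    Measurable (block T f L n) :=
  measurable_pi_lambda _ fun _ => hf.comp (hT.iterate _)

theorem real_block_shift (hT : MeasurePreserving T μ μ) (hf : Measurable f) (L n : ℕ)
    (S : Set (Fin (L + 1) → G)) :
    μ.real (block T f L n ⁻¹' S) = μ.real (block T f L 0 ⁻¹' S) := by
  have h : block T f L n = block T f L 0 ∘ (T^[n]) := by
    funext x s
    simp only [block, Function.comp_apply, ← Function.iterate_add_apply, zero_add, add_comm n]
  rw [h, Set.preimage_comp, (hT.iterate n).measureReal_preimage]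
  exact ((measurable_block hT.measurable hf L 0)
    (Set.toFinite S).measurableSet).nullMeasurableSet

theorem sum_real_inter {V : Type*} [Fintype V] [MeasurableSpace V] [MeasurableSingletonClass V]
    {W : Ω → V} (hW : Measurable W) (B : Set Ω) :
    ∑ u, μ.real (B ∩ W ⁻¹' {u}) = μ.real B := by
  classical
  have h : ∀ u, μ.real (B ∩ W ⁻¹' {u}) = (μ.restrict B).real (W ⁻¹' {u}) := fun u => by
    rw [measureReal_restrict_apply (hW (measurableSet_singleton u)), Set.inter_comm]
  simp only [h]
  rw [sum_measureReal_preimage_singleton _ (fun u _ => hW (measurableSet_singleton u))]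
  simp [measureReal_restrict_apply_univ]

/-- A nearly exact relation between far blocks gives an exact convolution identity. -/
theorem exact_law (hT : MeasurePreserving T μ μ) (hf : Measurable f) {m : ℕ}
    (hmix : MixingOfOrder T μ (m + 2))
    (bad : ∀ ε : ℝ, 0 < ε → ∀ N : ℕ, ∃ t : Fin (m + 3) → ℕ,
      (∀ i j : Fin (m + 3), i < j → t i + N ≤ t j) ∧
      ∃ (a : Fin (m + 3) → G ≃+ G) (c : G),
        μ.real {x | ∑ i, a i (f (T^[t i] x)) ≠ c} < ε)
    (L : ℕ) [Fintype (Fin (L + 1) → G)] [DecidableEq (Fin (L + 1) → G)] :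
    ∃ (a : G ≃+ G) (b : Fin (m + 2) → G ≃+ G) (c : Fin (L + 1) → G),
      ∀ w, μ.real (block T f L 0 ⁻¹' {w}) = ∑ u : Fin (m + 2) → Fin (L + 1) → G,
        if (AddEquiv.piCongrRight fun _ => a) w +
          ∑ i, (AddEquiv.piCongrRight fun _ => b i) (u i) = c then ∏ i, μ.real (block T f L 0 ⁻¹' {u i}) else 0 := by
  classical
  set ν := fun w : Fin (L + 1) → G => μ.real (block T f L 0 ⁻¹' {w}) with hν
  let lift : (G ≃+ G) → (Fin (L + 1) → G) ≃+ (Fin (L + 1) → G) :=
    fun e => AddEquiv.piCongrRight fun _ => e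
  let F : (Fin (m + 3) → G ≃+ G) × G → ℝ := fun p => ∑ w, |ν w -
    ∑ u : Fin (m + 2) → Fin (L + 1) → G,
      if lift (p.1 0) w + ∑ i, lift (p.1 i.succ) (u i) = (fun _ => p.2)
        then ∏ i, ν (u i) else 0|
  by_contra hno
  have hpos : ∀ p, 0 < F p := by
    intro p
    refine lt_of_le_of_ne (Finset.sum_nonneg fun _ _ => abs_nonneg _) fun h => hno ?_
    refine ⟨p.1 0, fun i => p.1 i.succ, fun _ => p.2, fun w => ?_⟩
    have := (Finset.sum_eq_zero_iff_of_nonneg fun _ _ => abs_nonneg _).1 h.symm w
      (Finset.mem_univ w)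
    exact sub_eq_zero.1 (abs_eq_zero.1 this)
  have : Finite (G ≃+ G) := Finite.of_injective _ DFunLike.coe_injective
  have : Nonempty ((Fin (m + 3) → G ≃+ G) × G) := ⟨(fun _ => AddEquiv.refl G, 0)⟩
  obtain ⟨p₀, hp₀⟩ := Finite.exists_min F
  set δ := F p₀
  have hδ : 0 < δ := hpos p₀
  -- error budget
  set K : ℝ := (Fintype.card (Fin (L + 1) → G) : ℝ) with hK
  set M : ℝ := (Fintype.card (Fin (m + 2) → Fin (L + 1) → G) : ℝ) with hM
  have hK0 : 0 < K := by rw [hK]; exact_mod_cast Fintype.card_pos
  have hM0 : 0 < M := by rw [hM]; exact_mod_cast Fintype.card_pos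
  have hL0 : (0 : ℝ) < L + 1 := by positivity
  obtain ⟨N, hN⟩ : ∃ N : ℕ, ∀ u : Fin (m + 2) → Fin (L + 1) → G, ∀ t : Fin (m + 2) → ℕ,
      (∀ i j : Fin (m + 2), i < j → t i + N ≤ t j) →
      |μ.real (⋂ i, (T^[t i]) ⁻¹' (block T f L 0 ⁻¹' {u i})) - ∏ i, ν (u i)|
        < δ / (4 * K * M) := by
    choose Nf hNf using fun u : Fin (m + 2) → Fin (L + 1) → G =>
      hmix (fun i => block T f L 0 ⁻¹' {u i})
        (fun i => measurable_block hT.measurable hf L 0 (measurableSet_singleton _))
        (δ / (4 * K * M)) (by positivity)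
    exact ⟨Finset.univ.sup Nf, fun u t ht => hNf u t fun i j h =>
      le_trans (by gcongr; exact Finset.le_sup (Finset.mem_univ u)) (ht i j h)⟩
  obtain ⟨t, ht, a, c, hc⟩ := bad (δ / (4 * K * (L + 1))) (by positivity) N
  refine absurd (hp₀ (a, c)) (not_le.2 ?_)
  -- the event on which all the block relations hold
  let W : Fin (m + 2) → Ω → Fin (L + 1) → G := fun i => block T f L (t i.succ)
  let Z : Ω → Fin (m + 2) → Fin (L + 1) → G := fun x i => W i x
  have hW : ∀ i, Measurable (W i) := fun i => measurable_block hT.measurable hf L _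
  have hZ : Measurable Z := measurable_pi_lambda _ hW
  let A : (Fin (L + 1) → G) → Set (Fin (m + 2) → Fin (L + 1) → G) := fun w =>
    {u | lift (a 0) w + ∑ i, lift (a i.succ) (u i) = fun _ => c}
  let D : Set Ω := ⋃ s : Fin (L + 1),
    (T^[(s : ℕ)]) ⁻¹' {x | ∑ i, a i (f (T^[t i] x)) ≠ c}
  have hcm : MeasurableSet {x | ∑ i, a i (f (T^[t i] x)) ≠ c} := by
    have : Measurable fun x i => f (T^[t i] x) :=
      measurable_pi_lambda _ fun i => hf.comp (hT.measurable.iterate _)
    exact this (Set.toFinite {v : Fin (m + 3) → G | ∑ i, a i (v i) ≠ c}).measurableSet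
  have hD : μ.real D ≤ δ / (4 * K) := by
    refine (measureReal_iUnion_fintype_le _).trans ?_
    simp only [(hT.iterate _).measureReal_preimage hcm.nullMeasurableSet]
    rw [Finset.sum_const, Finset.card_univ, Fintype.card_fin, nsmul_eq_mul]
    calc ((L + 1 : ℕ) : ℝ) * μ.real {x | ∑ i, a i (f (T^[t i] x)) ≠ c}
        ≤ ((L + 1 : ℕ) : ℝ) * (δ / (4 * K * (L + 1))) := by gcongr
      _ = δ / (4 * K) := by push_cast; field_simp
  have hrel : ∀ x ∉ D, lift (a 0) (block T f L (t 0) x) +
      ∑ i, lift (a i.succ) (W i x) = fun _ => c := by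
    intro x hx
    funext s
    have h : ∑ i, a i (f (T^[t i] (T^[(s : ℕ)] x))) = c :=
      not_not.1 fun h => hx (Set.mem_iUnion.2 ⟨s, h⟩)
    rw [Fin.sum_univ_succ] at h
    simpa [lift, W, block, Finset.sum_apply, ← Function.iterate_add_apply] using h
  have h1 : ∀ w, |ν w - μ.real (Z ⁻¹' A w)| ≤ δ / (4 * K) := by
    intro w
    have heq : ν w = μ.real (block T f L (t 0) ⁻¹' {w}) :=
      (real_block_shift hT hf L (t 0) {w}).symm
    rw [heq, abs_sub_le_iff]
    refine ⟨?_, ?_⟩ <;> rw [sub_le_iff_le_add'] <;>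
      refine le_trans (le_trans (measureReal_mono ?_) (measureReal_union_le _ D))
        (add_le_add_right hD _)
    · intro x hx
      by_cases hxD : x ∈ D
      · exact Or.inr hxD
      · left
        show lift (a 0) w + _ = _
        rw [← show block T f L (t 0) x = w from hx]
        exact hrel x hxD
    · intro x hx
      by_cases hxD : x ∈ D
      · exact Or.inr hxD
      · left
        show block T f L (t 0) x = w
        refine (lift (a 0)).injective (add_right_cancel (b := ∑ i, lift (a i.succ) (W i x)) ?_)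
        exact (hrel x hxD).trans (show lift (a 0) w + _ = _ from hx).symm
  have h2 : ∀ w, |μ.real (Z ⁻¹' A w) - ∑ u, if u ∈ A w then ∏ i, ν (u i) else 0|
      ≤ δ / (4 * K) := by
    intro w
    rw [← sum_real_inter hZ (Z ⁻¹' A w), ← Finset.sum_sub_distrib]
    refine (Finset.abs_sum_le_sum_abs _ _).trans ?_
    calc ∑ u, |μ.real (Z ⁻¹' A w ∩ Z ⁻¹' {u}) - if u ∈ A w then ∏ i, ν (u i) else 0|
        ≤ ∑ _u : Fin (m + 2) → Fin (L + 1) → G, δ / (4 * K * M) := by
          refine Finset.sum_le_sum fun u _ => ?_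
          by_cases hu : u ∈ A w
          · have hsub : Z ⁻¹' {u} ⊆ Z ⁻¹' A w :=
              Set.preimage_mono (Set.singleton_subset_iff.2 hu)
            rw [if_pos hu, Set.inter_eq_right.2 hsub]
            have hset : Z ⁻¹' {u} = ⋂ i, (T^[t i.succ]) ⁻¹' (block T f L 0 ⁻¹' {u i}) := by
              ext x
              simp [Z, W, funext_iff, block, ← Function.iterate_add_apply, add_comm]
            rw [hset]
            exact (hN u (fun i => t i.succ) fun i j h =>
              ht _ _ (Fin.succ_lt_succ_iff.2 h)).le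
          · have he : Z ⁻¹' A w ∩ Z ⁻¹' {u} = ∅ := by
              rw [← Set.preimage_inter, Set.inter_singleton_eq_empty.2 hu, Set.preimage_empty]
            rw [if_neg hu, he]
            simp only [measureReal_empty, sub_self, abs_zero]
            positivity
      _ = δ / (4 * K) := by
          rw [Finset.sum_const, Finset.card_univ, nsmul_eq_mul, ← hM]; field_simp
  calc F (a, c) ≤ ∑ _w : Fin (L + 1) → G, δ / (2 * K) := by
        refine Finset.sum_le_sum fun w _ => (abs_sub_le _ (μ.real (Z ⁻¹' A w)) _).trans ?_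
        have := h2 w
        simp only [A, Set.mem_ofPred_eq] at this
        have h := h1 w
        have e : δ / (4 * K) + δ / (4 * K) = δ / (2 * K) := by field_simp; ring
        linarith
    _ < δ := by
        rw [Finset.sum_const, Finset.card_univ, nsmul_eq_mul, ← hK]
        field_simp
        linarith

/-- A deterministic last symbol forces periodicity of the symbol process. -/
theorem periodic_of_determined (hT : MeasurePreserving T μ μ) (hf : Measurable f) (L : ℕ)
    (hdet : ∀ u v : Fin (L + 2) → G, 0 < μ.real (block T f (L + 1) 0 ⁻¹' {u}) →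
      0 < μ.real (block T f (L + 1) 0 ⁻¹' {v}) →
      (∀ s : Fin (L + 1), u s.castSucc = v s.castSucc) → u (Fin.last _) = v (Fin.last _)) :
    ∃ P, 0 < P ∧ ∀ᵐ x ∂μ, f (T^[P] x) = f x := by
  classical
  let Q : Set (Fin (L + 2) → G) := {u | 0 < μ.real (block T f (L + 1) 0 ⁻¹' {u})}
  let pre : (Fin (L + 2) → G) → Fin (L + 1) → G := fun u s => u s.castSucc
  let Φ : (Fin (L + 1) → G) → Fin (L + 1) → G := fun v =>
    if h : ∃ u ∈ Q, pre u = v then fun s => h.choose s.succ else v
  have hΦ : ∀ u ∈ Q, Φ (pre u) = fun s => u s.succ := by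
    intro u hu
    have h : ∃ u' ∈ Q, pre u' = pre u := ⟨u, hu, rfl⟩
    simp only [Φ, dif_pos h]
    have h2 := h.choose_spec
    have he : h.choose = u := by
      funext s
      refine Fin.lastCases ?_ (fun s => congrFun h2.2 s) s
      exact hdet _ _ h2.1 hu (fun s => congrFun h2.2 s)
    rw [he]
  have hQ : ∀ n, ∀ᵐ x ∂μ, block T f (L + 1) n x ∈ Q := by
    intro n
    rw [ae_iff]
    have hz : μ.real (block T f (L + 1) n ⁻¹' Qᶜ) = 0 := by
      rw [real_block_shift hT hf]
      have : Fintype (Fin (L + 2) → G) := Fintype.ofFinite _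
      rw [← sum_real_inter (measurable_block hT.measurable hf (L + 1) 0)]
      refine Finset.sum_eq_zero fun u _ => ?_
      by_cases hu : u ∈ Q
      · rw [show block T f (L + 1) 0 ⁻¹' Qᶜ ∩ block T f (L + 1) 0 ⁻¹' {u} = ∅ from
          Set.eq_empty_of_forall_notMem fun x ⟨h, (h' : _ = u)⟩ => h (h' ▸ hu)]
        simp
      · exact le_antisymm ((measureReal_mono Set.inter_subset_right).trans (not_lt.1 hu))
          measureReal_nonneg
    exact (measureReal_eq_zero_iff).1 hz
  have hstep : ∀ n, ∀ᵐ x ∂μ, block T f L (n + 1) x = Φ (block T f L n x) := by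
    intro n
    filter_upwards [hQ n] with x hx
    have e : pre (block T f (L + 1) n x) = block T f L n x := rfl
    rw [← e, hΦ _ hx]
    funext s
    simp [block, add_assoc, add_comm 1]
  have hit : ∀ᵐ x ∂μ, ∀ n, block T f L n x = Φ^[n] (block T f L 0 x) := by
    filter_upwards [ae_all_iff.2 hstep] with x hx
    intro n
    induction n with
    | zero => rfl
    | succ n ih => rw [hx n, ih, Function.iterate_succ_apply']
  obtain ⟨i, j, hne, heq⟩ := Finite.exists_ne_map_eq_of_infinite fun n : ℕ => Φ^[n]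
  wlog hij : i < j generalizing i j
  · exact this j i hne.symm heq.symm (lt_of_le_of_ne (not_lt.1 hij) hne.symm)
  refine ⟨j - i, Nat.sub_pos_of_lt hij, ?_⟩
  have hsm : MeasurableSet {x | f (T^[j - i] x) = f x} := by
    have hm : Measurable fun x => (f (T^[j - i] x), f x) :=
      (hf.comp (hT.measurable.iterate _)).prodMk hf
    exact hm (Set.toFinite {p : G × G | p.1 = p.2}).measurableSet
  have hj : ∀ᵐ x ∂μ, f (T^[j - i] (T^[i] x)) = f (T^[i] x) := by
    filter_upwards [hit] with x hx
    have := congrFun ((hx j).trans ((congrFun heq.symm _).trans (hx i).symm)) 0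
    rw [← Function.iterate_add_apply, Nat.sub_add_cancel hij.le]
    simpa [block] using this
  rw [ae_iff] at hj ⊢
  exact ((hT.iterate i).measure_preimage (hsm.compl.nullMeasurableSet)).symm.trans hj

/-- A periodic symbol process of a mixing map is almost surely constant. -/
theorem const_of_periodic (hf : Measurable f) {m : ℕ} (hmix : MixingOfOrder T μ (m + 2))
    {P : ℕ} (hP : 0 < P) (hper : ∀ᵐ x ∂μ, f (T^[P] x) = f x)
    (hT : MeasurePreserving T μ μ) : ∃ c, ∀ᵐ x ∂μ, f x = c := by
  classical
  have hiter : ∀ k, ∀ᵐ x ∂μ, f (T^[k * P] x) = f x := by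
    intro k
    induction k with
    | zero => simp
    | succ k ih =>
      filter_upwards [ih, (hT.iterate (k * P)).quasiMeasurePreserving.ae hper] with x h1 h2
      rw [Nat.succ_mul, add_comm, Function.iterate_add_apply, h2, h1]
  have hzo : ∀ v, μ.real (f ⁻¹' {v}) = 0 ∨ μ.real (f ⁻¹' {v}) = 1 := by
    intro v
    set A := f ⁻¹' {v}
    have hA : MeasurableSet A := hf (measurableSet_singleton v)
    have hkey : μ.real A = μ.real A * μ.real A := by
      refine eq_of_forall_dist_le fun ε hε => ?_
      let S : Fin (m + 2) → Set Ω :=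
        fun i => if (i : ℕ) ≤ 1 then A else Set.univ
      obtain ⟨N, hN⟩ := hmix S (fun i => by simp only [S]; split <;> simp [hA]) ε hε
      let s : Fin (m + 2) → ℕ := fun i => (i : ℕ) * ((N + 1) * P)
      have hs : ∀ i j : Fin (m + 2), i < j → s i + N ≤ s j := by
        intro i j h
        have h1 : ((i : ℕ) + 1) * ((N + 1) * P) ≤ (j : ℕ) * ((N + 1) * P) :=
          Nat.mul_le_mul_right _ h
        have h2 : N + 1 ≤ (N + 1) * P := Nat.le_mul_of_pos_right _ hP
        simp only [s]; rw [Nat.succ_mul] at h1; omega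
      have h := hN s hs
      have hI : (⋂ i, (T^[s i]) ⁻¹' S i) = A ∩ (T^[(N + 1) * P]) ⁻¹' A := by
        ext x
        simp only [Set.mem_iInter, Set.mem_preimage, Set.mem_inter_iff]
        constructor
        · exact fun hx => ⟨by simpa [S, s] using hx 0, by simpa [S, s] using hx 1⟩
        · intro hx i
          simp only [S]
          split
          · rename_i hi
            interval_cases hii : (i : ℕ)
            · simpa [s, hii] using hx.1
            · simpa [s, hii] using hx.2
          · trivial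
      have hae : μ.real (A ∩ (T^[(N + 1) * P]) ⁻¹' A) = μ.real A := by
        refine measureReal_congr (Filter.eventuallyEq_set.2 ?_)
        filter_upwards [hiter (N + 1)] with x hx
        simp [A, hx]
      have hp : ∏ i, μ.real (S i) = μ.real A * μ.real A := by
        rw [Fin.prod_univ_succ, Fin.prod_univ_succ]
        simp [S]
      rw [hI, hae, hp] at h
      exact h.le
    rcases eq_or_ne (μ.real A) 0 with h | h
    · exact Or.inl h
    · exact Or.inr ((mul_eq_left₀ h).1 hkey.symm)
  have : Fintype G := Fintype.ofFinite G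
  have hsum : ∑ v, μ.real (f ⁻¹' {v}) = 1 := by
    rw [sum_measureReal_preimage_singleton _ (fun v _ => hf (measurableSet_singleton v))]
    simp
  obtain ⟨v, -, hv⟩ := Finset.exists_ne_zero_of_sum_ne_zero (hsum.trans_ne one_ne_zero)
  refine ⟨v, ?_⟩
  have h1 := (hzo v).resolve_left hv
  rw [measureReal_def, ENNReal.toReal_eq_one_iff] at h1
  exact mem_ae_iff.2 ((prob_compl_eq_zero_iff (hf (measurableSet_singleton v))).2 h1)

/-- No nonconstant finite valued observable has asymptotically exact relations of the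
first order at which independence is not assumed. -/
theorem relation_gap (hT : MeasurePreserving T μ μ) (hf : Measurable f) {m : ℕ}
    (hmix : MixingOfOrder T μ (m + 2)) (hne : ¬ ∃ c, ∀ᵐ x ∂μ, f x = c) :
    ∃ δ : ℝ, 0 < δ ∧ ∃ N : ℕ, ∀ t : Fin (m + 3) → ℕ,
      (∀ i j : Fin (m + 3), i < j → t i + N ≤ t j) →
      ∀ (a : Fin (m + 3) → G ≃+ G) (c : G),
        δ ≤ μ.real {x | ∑ i, a i (f (T^[t i] x)) ≠ c} := by
  classical
  by_contra hgap
  have bad : ∀ ε : ℝ, 0 < ε → ∀ N : ℕ, ∃ t : Fin (m + 3) → ℕ,
      (∀ i j : Fin (m + 3), i < j → t i + N ≤ t j) ∧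
      ∃ (a : Fin (m + 3) → G ≃+ G) (c : G),
        μ.real {x | ∑ i, a i (f (T^[t i] x)) ≠ c} < ε := by
    intro ε hε N
    by_contra h
    simp only [not_exists, not_and, not_lt] at h
    exact hgap ⟨ε, hε, N, fun t ht a c => h t ht a c⟩
  let ν : (L : ℕ) → (Fin (L + 1) → G) → ℝ := fun L w => μ.real (block T f L 0 ⁻¹' {w})
  -- every last symbol carries a symmetry
  have sym : ∀ L : ℕ, ∃ d : G, d ≠ 0 ∧
      ∀ z : Fin (L + 2) → G, ν (L + 1) (z + Pi.single (Fin.last _) d) = ν (L + 1) z := by
    intro L
    by_contra hno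
    apply hne
    obtain ⟨P, hP, hper⟩ := periodic_of_determined (μ := μ) (f := f) hT hf L fun u v hu hv hp => by
      by_contra huv
      have : Fintype (Fin (L + 2) → G) := Fintype.ofFinite _
      have : DecidableEq (Fin (L + 2) → G) := Classical.decEq _
      obtain ⟨a, b, c, heq⟩ := exact_law hT hf hmix bad (L + 1)
      have h1 : ∑ w, ν (L + 1) w = 1 := by
        simp only [ν]
        rw [sum_measureReal_preimage_singleton _
          (fun w _ => measurable_block hT.measurable hf (L + 1) 0 (measurableSet_singleton w))]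
        simp
      have hsymm := fun z => support_translate (ν (L + 1)) (fun _ => measureReal_nonneg) h1
        (fun i => AddEquiv.piCongrRight fun _ => b i) (AddEquiv.piCongrRight fun _ => a)
        c heq hu hv z
      refine hno ⟨(b 0).symm (a (u (Fin.last _) - v (Fin.last _))), ?_, fun z => ?_⟩
      · simpa [sub_eq_zero] using huv
      · refine Eq.trans (congrArg _ (congrArg (z + ·) ?_)) (hsymm z)
        funext s
        refine Fin.lastCases ?_ (fun s => ?_) s
        · simp [map_sub]
        · simp [hp s, Fin.castSucc_ne_last]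
    exact const_of_periodic hf hmix hP hper hT
  obtain ⟨t, ht, a, c, hc⟩ := bad (1 / 3) (by norm_num) 1
  obtain ⟨L, hL⟩ : ∃ L, t (Fin.last _) = L + 1 := by
    have := ht 0 (Fin.last _) (Fin.last_pos)
    exact ⟨t (Fin.last _) - 1, by omega⟩
  obtain ⟨d, hd, hsym⟩ := sym L
  have hlt : ∀ i : Fin (m + 2), t i.castSucc < L + 1 := fun i => by
    have := ht _ _ (Fin.castSucc_lt_last i); omega
  let pos : Fin (m + 3) → Fin (L + 2) :=
    Fin.lastCases (Fin.last _) fun i => (⟨t i.castSucc, hlt i⟩ : Fin (L + 1)).castSucc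
  have hpos : ∀ i, (pos i : ℕ) = t i := by
    intro i
    refine Fin.lastCases ?_ (fun i => ?_) i <;> simp [pos, hL]
  have : Fintype (Fin (L + 2) → G) := Fintype.ofFinite _
  let E : Set (Fin (L + 2) → G) := {u | ∑ i, a i (u (pos i)) = c}
  let E' : Set (Fin (L + 2) → G) := (· + Pi.single (Fin.last _) d) ⁻¹' E
  have hdis : Disjoint E E' := by
    rw [Set.disjoint_left]
    intro u hu hu'
    simp only [E, E', Set.mem_preimage, Set.mem_ofPred_eq, Fin.sum_univ_castSucc] at hu hu'
    simp only [pos, Fin.lastCases_last, Fin.lastCases_castSucc, Pi.add_apply, Pi.single_eq_same,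
      Pi.single_eq_of_ne (Fin.castSucc_ne_last _), add_zero, map_add] at hu hu'
    rw [← add_assoc, hu] at hu'
    exact hd (by simpa using hu')
  have hWm := measurable_block (T := T) hT.measurable hf (L + 1) 0
  have hsum : ∀ S : Set (Fin (L + 2) → G),
      μ.real (block T f (L + 1) 0 ⁻¹' S) = ∑ u, if u ∈ S then ν (L + 1) u else 0 := by
    intro S
    rw [← sum_real_inter hWm]
    refine Finset.sum_congr rfl fun u _ => ?_
    split
    · rename_i hu
      have hsub : block T f (L + 1) 0 ⁻¹' {u} ⊆ block T f (L + 1) 0 ⁻¹' S :=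
        Set.preimage_mono (Set.singleton_subset_iff.2 hu)
      rw [Set.inter_eq_right.2 hsub]
    · rename_i hu
      rw [← Set.preimage_inter, Set.inter_singleton_eq_empty.2 hu, Set.preimage_empty]
      simp
  have heq : μ.real (block T f (L + 1) 0 ⁻¹' E') = μ.real (block T f (L + 1) 0 ⁻¹' E) := by
    rw [hsum, hsum]
    refine Eq.trans (Finset.sum_congr rfl fun u _ => ?_)
      (Equiv.sum_comp (Equiv.addRight (Pi.single (Fin.last (L + 1)) d : Fin (L + 2) → G))
        fun u => if u ∈ E then ν (L + 1) u else 0)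
    simp only [Equiv.coe_addRight, hsym]
    rfl
  have htot : μ.real (block T f (L + 1) 0 ⁻¹' E) + μ.real (block T f (L + 1) 0 ⁻¹' E') ≤ 1 := by
    rw [← measureReal_union (hdis.preimage _) (hWm (Set.toFinite E').measurableSet)]
    exact measureReal_le_one
  have hE : block T f (L + 1) 0 ⁻¹' E = {x | ∑ i, a i (f (T^[t i] x)) ≠ c}ᶜ := by
    ext x
    simp [E, block, hpos]
  have := measureReal_compl (μ := μ) (hWm (Set.toFinite E).measurableSet)
  rw [hE, compl_compl, probReal_univ] at this
  rw [← hE] at this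
  linarith

end Vale.Agent.P102
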